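import Vale.Agent.P367.Fin.Tail

open MeasureTheory Filter Topology Finset Complex

namespace Vale.Agent.P367.Fin

lemma exp_small (a : ℝ) (ha : 10 ≤ a) (q : ℝ) (hq : 1 ≤ q) : Real.exp (-(a * q)) ≤ 0.001 := by
  have h1 : Real.exp (-(a * q)) ≤ Real.exp (-10) := by
    apply Real.exp_le_exp.mpr
    nlinarith
  have h2 : Real.exp (-10) = (Real.exp 1)⁻¹ ^ 10 := by
    rw [← Real.exp_neg, ← Real.exp_nat_mul]
    norm_num
  have h3 : (Real.exp 1)⁻¹ ≤ 0.5 := by
    rw [inv_le_comm₀ (Real.exp_pos 1) (by norm_num)]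
    have := Real.exp_one_gt_d9
    norm_num
    linarith
  have h4 : (Real.exp 1)⁻¹ ^ 10 ≤ (0.5 : ℝ) ^ 10 :=
    pow_le_pow_left₀ (by positivity) h3 10
  rw [h2] at h1
  have h5 : ((0.5 : ℝ) ^ 10) ≤ 0.001 := by norm_num
  linarith

lemma numeric (N : ℕ) (M : ℝ) (hM : M = (N : ℝ) + 1) :
    Real.exp (8401 * M ^ 2) * (Real.exp ((20 * M) ^ 2 / 2)
      * (2 * (40 * M) * (Real.exp (-(9000 * M ^ 2)) + Real.exp (-(24 * (40 * M) ^ 2)))
        + N * Real.exp (-(40000 * M ^ 2)))) + N * Real.exp (-(40000 * M ^ 2)) < 0.012 := by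
  have hN0 : (0 : ℝ) ≤ N := Nat.cast_nonneg N
  have hM1 : 1 ≤ M := by rw [hM]; linarith
  have hNM : (N : ℝ) ≤ M := by rw [hM]; linarith
  obtain ⟨q, hq⟩ : ∃ q : ℝ, q = M ^ 2 := ⟨_, rfl⟩
  have hMq : M ≤ q := by rw [hq]; nlinarith
  have hq1 : 1 ≤ q := by linarith
  have e1 : (20 * M) ^ 2 / 2 = 200 * q := by rw [hq]; ring
  have e2 : 24 * (40 * M) ^ 2 = 38400 * q := by rw [hq]; ring
  rw [e1, e2, ← hq]
  have hηs : N * Real.exp (-(40000 * q)) ≤ Real.exp (-(39999 * q)) := by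
    have h1 : (N : ℝ) ≤ Real.exp q := by
      have := Real.add_one_le_exp q
      linarith
    calc (N : ℝ) * Real.exp (-(40000 * q)) ≤ Real.exp q * Real.exp (-(40000 * q)) :=
          mul_le_mul_of_nonneg_right h1 (Real.exp_pos _).le
      _ = Real.exp (-(39999 * q)) := by rw [← Real.exp_add]; ring_nf
  have h2m : 2 * (40 * M) ≤ Real.exp (80 * q) := by
    have := Real.add_one_le_exp (80 * q)
    linarith
  have hhs : 2 * (40 * M) * (Real.exp (-(9000 * q)) + Real.exp (-(38400 * q)))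
      ≤ Real.exp (-(8920 * q)) + Real.exp (-(38320 * q)) := by
    calc 2 * (40 * M) * (Real.exp (-(9000 * q)) + Real.exp (-(38400 * q)))
        ≤ Real.exp (80 * q) * (Real.exp (-(9000 * q)) + Real.exp (-(38400 * q))) :=
          mul_le_mul_of_nonneg_right h2m (by positivity)
      _ = _ := by rw [mul_add, ← Real.exp_add, ← Real.exp_add]; ring_nf
  have hA : Real.exp (8401 * q) * (Real.exp (200 * q)
      * (2 * (40 * M) * (Real.exp (-(9000 * q)) + Real.exp (-(38400 * q)))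
        + N * Real.exp (-(40000 * q)))) ≤ 0.003 := by
    calc Real.exp (8401 * q) * (Real.exp (200 * q)
      * (2 * (40 * M) * (Real.exp (-(9000 * q)) + Real.exp (-(38400 * q)))
        + N * Real.exp (-(40000 * q))))
        ≤ Real.exp (8401 * q) * (Real.exp (200 * q)
          * (Real.exp (-(8920 * q)) + Real.exp (-(38320 * q)) + Real.exp (-(39999 * q)))) := by
          apply mul_le_mul_of_nonneg_left _ (Real.exp_pos _).le
          apply mul_le_mul_of_nonneg_left _ (Real.exp_pos _).le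
          linarith
      _ = Real.exp (-(319 * q)) + Real.exp (-(29719 * q)) + Real.exp (-(31398 * q)) := by
          rw [mul_add, mul_add, mul_add, mul_add, ← Real.exp_add, ← Real.exp_add,
            ← Real.exp_add, ← Real.exp_add, ← Real.exp_add, ← Real.exp_add]
          ring_nf
      _ ≤ 0.003 := by
          have a1 := exp_small 319 (by norm_num) q hq1
          have a2 := exp_small 29719 (by norm_num) q hq1
          have a3 := exp_small 31398 (by norm_num) q hq1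
          linarith
  have a4 := exp_small 39999 (by norm_num) q hq1
  linarith

/-- **Tail lemma.** If the characteristic functions converge to a Gaussian times a sum of `N`
exponentials with the indicated normalisation, and half of the mass stays in `[-12, 12]`, then a
definite mass stays in `(-∞, -1)`. -/
theorem tail_lower (N : ℕ) (ρ : ℕ → Measure ℝ) [∀ n, IsProbabilityMeasure (ρ n)]
    (h12 : ∀ᶠ n in atTop, 1 / 2 ≤ (ρ n).real (Set.Icc (-12) 12))
    (c μ : Fin N → ℂ) (hc : ∀ k, ‖c k‖ * Real.exp ((μ k).re ^ 2 / 2) ≤ 1)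
    (hφ : ∀ ξ : ℝ, Tendsto (fun n => ∫ x : ℝ, cexp (-(I * ξ * x)) ∂(ρ n)) atTop
      (𝓝 (cexp (-(ξ : ℂ) ^ 2 / 2) * ∑ k, c k * cexp (-(ξ * μ k))))) :
    ∀ᶠ n in atTop, Real.exp (-(9000 * ((N : ℝ) + 1) ^ 2)) ≤ (ρ n).real (Set.Iio (-1)) := by
  by_contra hcon
  rw [Filter.not_eventually] at hcon
  obtain ⟨M, hM⟩ : ∃ M : ℝ, M = (N : ℝ) + 1 := ⟨_, rfl⟩
  rw [← hM] at hcon
  have hN0 : (0 : ℝ) ≤ N := Nat.cast_nonneg N
  have hM1 : 1 ≤ M := by rw [hM]; linarith
  obtain ⟨mN, hmN⟩ : ∃ mN : ℕ, mN = 40 * (N + 1) := ⟨_, rfl⟩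
  have hmN0 : 0 < mN := by rw [hmN]; omega
  obtain ⟨m, hm⟩ : ∃ m : ℝ, m = 40 * M := ⟨_, rfl⟩
  have hmm : (mN : ℝ) = m := by rw [hmN, hm, hM]; push_cast; ring
  have hm1 : 1 ≤ m := by rw [hm]; linarith
  have hm0 : 0 < m := by linarith
  have hlim : ∀ x0, Tendsto (fun n => Real.sqrt (1 + m ^ 2) * ∫ x, bump m x0 x ∂(ρ n)) atTop
      (𝓝 ‖prof m c μ x0‖) := by
    intro x0
    have h := (bump_tendsto ρ c μ hφ m hm0 x0).norm
    refine h.congr fun n => ?_
    rw [Complex.norm_real, Real.norm_eq_abs, abs_of_nonneg]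
    exact mul_nonneg (Real.sqrt_nonneg _) (integral_nonneg fun x => bump_nonneg _ _ _)
  have hsq1 : Real.sqrt (1 + m ^ 2) ≤ 2 * m := by
    rw [Real.sqrt_le_left (by positivity)]
    nlinarith
  have hsq2 : m ≤ Real.sqrt (1 + m ^ 2) := by
    apply Real.le_sqrt_of_sq_le
    linarith
  obtain ⟨hs, hhs⟩ : ∃ hs : ℝ, hs = 2 * m * (Real.exp (-(9000 * M ^ 2))
    + Real.exp (-(24 * m ^ 2))) := ⟨_, rfl⟩
  have hs0 : 0 ≤ hs := by rw [hhs]; positivity
  have hup : ∀ x0 : ℝ, x0 ≤ -8 → ‖prof m c μ x0‖ ≤ hs := by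
    intro x0 hx0
    have hfreq : ∃ᶠ n in atTop, Real.sqrt (1 + m ^ 2) * ∫ x, bump m x0 x ∂(ρ n) ≤ hs := by
      refine hcon.mono fun n hn => ?_
      rw [not_le] at hn
      have h1 := bump_left m x0 hx0 (ρ n)
      rw [hhs]
      apply mul_le_mul hsq1 _ (integral_nonneg fun x => bump_nonneg _ _ _) (by positivity)
      linarith
    by_contra hc'
    rw [not_le] at hc'
    have hev := (hlim x0).eventually (lt_mem_nhds hc')
    obtain ⟨n, hn1, hn2⟩ := (hfreq.and_eventually hev).exists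
    linarith
  obtain ⟨x0, hx0a, hx0b, hx0c⟩ : ∃ x0 : ℝ, -12 ≤ x0 ∧ x0 ≤ 12 ∧ 0.012 ≤ ‖prof m c μ x0‖ := by
    by_contra hne
    have hne' : ∀ x0 : ℝ, -12 ≤ x0 → x0 ≤ 12 → ‖prof m c μ x0‖ ≤ 0.012 := by
      intro x0 h1 h2
      by_contra h3
      exact hne ⟨x0, h1, h2, (not_le.mp h3).le⟩
    have hsum : Tendsto (fun n => ∑ j ∈ Finset.range (24 * mN + 1),
        Real.sqrt (1 + m ^ 2) * ∫ x, bump m (gr mN j) x ∂(ρ n)) atTop
        (𝓝 (∑ j ∈ Finset.range (24 * mN + 1), ‖prof m c μ (gr mN j)‖)) :=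
      tendsto_finsetSum _ fun j _ => hlim (gr mN j)
    have hlow : ∀ᶠ n in atTop, m * 0.3 ≤ ∑ j ∈ Finset.range (24 * mN + 1),
        Real.sqrt (1 + m ^ 2) * ∫ x, bump m (gr mN j) x ∂(ρ n) := by
      filter_upwards [h12] with n hn
      rw [← Finset.mul_sum]
      have h2 := grid_lower mN hmN0 (ρ n) hn
      rw [hmm] at h2
      exact mul_le_mul hsq2 h2 (by norm_num) (Real.sqrt_nonneg _)
    have hlow2 : m * 0.3 ≤ ∑ j ∈ Finset.range (24 * mN + 1), ‖prof m c μ (gr mN j)‖ :=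
      ge_of_tendsto hsum hlow
    have hup2 : ∑ j ∈ Finset.range (24 * mN + 1), ‖prof m c μ (gr mN j)‖
        ≤ ∑ j ∈ Finset.range (24 * mN + 1), (0.012 : ℝ) := by
      apply Finset.sum_le_sum
      intro j hj
      have := gr_mem mN hmN0 j hj
      exact hne' _ this.1 this.2
    rw [Finset.sum_const, card_range, nsmul_eq_mul] at hup2
    push_cast at hup2
    rw [hmm] at hup2
    have : 40 ≤ m := by rw [hm]; linarith
    nlinarith
  have hfinal := prof_extrap N c μ hc m M hM hm1 hs hs0 hup x0 hx0a hx0b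
  have hnum := numeric N M hM
  rw [hhs, hm] at hfinal
  rw [hm] at hx0c
  linarith

end Vale.Agent.P367.Fin
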