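import Mathlib

open Finset

namespace Vale.Agent.P367.Fin

/-- Turan-type recurrence: the value at time 0 of an exponential sum with `M` terms is controlled
by its values at times `1, ..., M`. -/
lemma recur {κ : Type*} [DecidableEq κ] (R : ℝ) (hR : 0 ≤ R) (s : Finset κ) :
    ∀ (b w : κ → ℂ) (A : ℝ), 0 ≤ A → (∀ k ∈ s, w k ≠ 0) → (∀ k ∈ s, ‖(w k)⁻¹‖ ≤ R) →
    (∀ v ∈ Finset.Icc 1 s.card, ‖∑ k ∈ s, b k * w k ^ v‖ ≤ A) →
    ‖∑ k ∈ s, b k‖ ≤ ((1 + R) ^ s.card - 1) * A := by
  induction s using Finset.induction_on with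
  | empty =>
    intro b w A hA _ _ _
    simp
  | insert a s ha ih =>
    intro b w A hA hw hwR hv
    have hwa : w a ≠ 0 := hw a (mem_insert_self a s)
    have hcard : (insert a s).card = s.card + 1 := card_insert_of_notMem ha
    set b' : κ → ℂ := fun k => b k * (1 - (w a)⁻¹ * w k) with hb'
    have hrec : ∀ v : ℕ, ∑ k ∈ s, b' k * w k ^ v
        = ∑ k ∈ insert a s, b k * w k ^ v - (w a)⁻¹ * ∑ k ∈ insert a s, b k * w k ^ (v + 1) := by
      intro v
      rw [sum_insert ha, sum_insert ha, mul_add, mul_sum]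
      have h1 : (w a)⁻¹ * (b a * w a ^ (v + 1)) = b a * w a ^ v := by
        rw [pow_succ]
        field_simp
      rw [h1]
      have h2 : ∑ k ∈ s, b' k * w k ^ v
          = ∑ k ∈ s, b k * w k ^ v - ∑ k ∈ s, (w a)⁻¹ * (b k * w k ^ (v + 1)) := by
        rw [← sum_sub_distrib]
        apply sum_congr rfl
        intro k _
        simp only [hb']
        rw [pow_succ]
        ring
      rw [h2]
      ring
    have hRa : ‖(w a)⁻¹‖ ≤ R := hwR a (mem_insert_self a s)
    have h1 : ∀ v ∈ Finset.Icc 1 s.card, ‖∑ k ∈ s, b' k * w k ^ v‖ ≤ (1 + R) * A := by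
      intro v hv'
      rw [Finset.mem_Icc] at hv'
      rw [hrec v]
      have e1 := hv v (by rw [Finset.mem_Icc, hcard]; omega)
      have e2 := hv (v + 1) (by rw [Finset.mem_Icc, hcard]; omega)
      calc ‖∑ k ∈ insert a s, b k * w k ^ v
            - (w a)⁻¹ * ∑ k ∈ insert a s, b k * w k ^ (v + 1)‖
          ≤ ‖∑ k ∈ insert a s, b k * w k ^ v‖
            + ‖(w a)⁻¹ * ∑ k ∈ insert a s, b k * w k ^ (v + 1)‖ := norm_sub_le _ _
        _ ≤ A + R * A := by
            rw [norm_mul]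
            exact add_le_add e1 (mul_le_mul hRa e2 (norm_nonneg _) hR)
        _ = (1 + R) * A := by ring
    have h2 := ih b' w ((1 + R) * A) (by positivity)
      (fun k hk => hw k (mem_insert_of_mem hk)) (fun k hk => hwR k (mem_insert_of_mem hk)) h1
    have h3 := hrec 0
    simp only [pow_zero, mul_one, zero_add, pow_one] at h3
    have h4 : ∑ k ∈ insert a s, b k
        = ∑ k ∈ s, b' k + (w a)⁻¹ * ∑ k ∈ insert a s, b k * w k := by
      rw [h3]; ring
    have e2 := hv 1 (by rw [Finset.mem_Icc, hcard]; omega)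
    simp only [pow_one] at e2
    rw [h4]
    calc ‖∑ k ∈ s, b' k + (w a)⁻¹ * ∑ k ∈ insert a s, b k * w k‖
        ≤ ‖∑ k ∈ s, b' k‖ + ‖(w a)⁻¹ * ∑ k ∈ insert a s, b k * w k‖ := norm_add_le _ _
      _ ≤ ((1 + R) ^ s.card - 1) * ((1 + R) * A) + R * A := by
          rw [norm_mul]
          exact add_le_add h2 (mul_le_mul hRa e2 (norm_nonneg _) hR)
      _ = ((1 + R) ^ (insert a s).card - 1) * A := by
          rw [hcard, pow_succ]; ring

end Vale.Agent.P367.Fin
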