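import Vale.Agent.P367.Fin.Turan

open MeasureTheory Filter Topology Finset Complex

namespace Vale.Agent.P367.Fin

/-- One term of the profile. -/
noncomputable def tm (r : ℝ) (c μ : ℂ) (x : ℝ) : ℂ :=
  c * cexp ((I * x - μ) ^ 2 / (2 * (1 + (r : ℂ))))

lemma prof_eq {N : ℕ} (m : ℝ) (c μ : Fin N → ℂ) (x : ℝ) :
    prof m c μ x = ∑ k, tm ((m ^ 2)⁻¹) (c k) (μ k) x := rfl

lemma tm_shift (r : ℝ) (hr : 0 ≤ r) (c μ : ℂ) (x0 : ℝ) (v : ℕ) :
    tm r c μ x0 * (cexp (20 * I * μ / (1 + (r : ℂ)))) ^ v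
      = ((Real.exp (((x0 - 20 * v) ^ 2 - x0 ^ 2) / (2 * (1 + r))) : ℝ) : ℂ)
        * tm r c μ (x0 - 20 * v) := by
  unfold tm
  rw [← Complex.exp_nat_mul, Complex.ofReal_exp, mul_assoc, mul_left_comm (cexp _),
    ← Complex.exp_add, ← Complex.exp_add]
  congr 2
  have h1 : (1 + (r : ℂ)) ≠ 0 := by
    have : (1 + r : ℝ) ≠ 0 := by positivity
    exact_mod_cast this
  push_cast
  field_simp
  ring_nf
  simp only [Complex.I_sq]
  ring

lemma bump_far (m x0 x : ℝ) (h : 7 ≤ |x - x0|) : bump m x0 x ≤ Real.exp (-(24 * m ^ 2)) := by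
  unfold bump
  apply Real.exp_le_exp.mpr
  have h1 : (7 : ℝ) ^ 2 ≤ (x - x0) ^ 2 := by
    rw [← sq_abs (x - x0)]
    exact pow_le_pow_left₀ (by norm_num) h 2
  have h2 : 0 ≤ m ^ 2 := sq_nonneg m
  nlinarith

lemma bump_integrable (ρ : Measure ℝ) [IsProbabilityMeasure ρ] (m x0 : ℝ) :
    Integrable (bump m x0) ρ := by
  refine (integrable_const (1 : ℝ)).mono' (continuous_bump m x0).aestronglyMeasurable
    (Filter.Eventually.of_forall fun x => ?_)
  rw [Real.norm_eq_abs, abs_of_nonneg (bump_nonneg _ _ _)]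
  exact bump_le_one _ _ _

/-- The grid. -/
noncomputable def gr (m : ℕ) (j : ℕ) : ℝ := -12 + (j : ℝ) / m

lemma gr_mem (m : ℕ) (hm : 0 < m) (j : ℕ) (hj : j ∈ Finset.range (24 * m + 1)) :
    -12 ≤ gr m j ∧ gr m j ≤ 12 := by
  have hm0 : (0 : ℝ) < m := by exact_mod_cast hm
  have hj1 : (j : ℝ) ≤ 24 * m := by
    exact_mod_cast Nat.lt_succ_iff.mp (Finset.mem_range.mp hj)
  have h1 : 0 ≤ (j : ℝ) / m := by positivity
  have h2 : (j : ℝ) / m ≤ 24 := (div_le_iff₀ hm0).mpr hj1
  unfold gr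
  constructor <;> linarith

lemma exp_half_lower : (0.6 : ℝ) ≤ Real.exp (-(1 / 2)) := by
  have h5 : (Real.exp (-(1 / 2))) ^ 2 = (Real.exp 1)⁻¹ := by
    rw [← Real.exp_nat_mul, ← Real.exp_neg]
    norm_num
  have h6 := Real.exp_one_lt_d9
  have h7 : (0.36 : ℝ) ≤ (Real.exp 1)⁻¹ := by
    rw [le_inv_comm₀ (by norm_num) (Real.exp_pos 1)]
    norm_num
    linarith
  have h8 : (0.6 : ℝ) ^ 2 ≤ (Real.exp (-(1 / 2))) ^ 2 := by
    rw [h5]; norm_num; linarith
  exact le_of_sq_le_sq h8 (Real.exp_pos _).le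

lemma grid_lower (m : ℕ) (hm : 0 < m) (ρ : Measure ℝ) [IsProbabilityMeasure ρ]
    (h : 1 / 2 ≤ ρ.real (Set.Icc (-12) 12)) :
    0.3 ≤ ∑ j ∈ Finset.range (24 * m + 1), ∫ x, bump m (gr m j) x ∂ρ := by
  have hm0 : (0 : ℝ) < m := by exact_mod_cast hm
  rw [← integral_finsetSum _ (fun j _ => bump_integrable ρ m (gr m j))]
  have h1 : ∀ x, (Set.Icc (-12 : ℝ) 12).indicator (fun _ => Real.exp (-(1 / 2))) x
      ≤ ∑ j ∈ Finset.range (24 * m + 1), bump m (gr m j) x := by
    intro x
    by_cases hx : x ∈ Set.Icc (-12 : ℝ) 12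
    · rw [Set.indicator_of_mem hx]
      obtain ⟨hx1, hx2⟩ := hx
      obtain ⟨j, hj⟩ : ∃ j : ℕ, j = ⌊(x + 12) * m⌋₊ := ⟨_, rfl⟩
      have hj0 : 0 ≤ (x + 12) * m := mul_nonneg (by linarith) hm0.le
      have hj1 : (j : ℝ) ≤ (x + 12) * m := by rw [hj]; exact Nat.floor_le hj0
      have hj2 : (x + 12) * m < j + 1 := by rw [hj]; exact Nat.lt_floor_add_one _
      have hjr : j ∈ Finset.range (24 * m + 1) := by
        rw [Finset.mem_range, Nat.lt_succ_iff]
        have h2 : (j : ℝ) ≤ 24 * m := by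
          calc (j : ℝ) ≤ (x + 12) * m := hj1
            _ ≤ 24 * m := mul_le_mul_of_nonneg_right (by linarith) hm0.le
        exact_mod_cast h2
      have hb : Real.exp (-(1 / 2)) ≤ bump m (gr m j) x := by
        unfold bump
        apply Real.exp_le_exp.mpr
        have e1 : m * (x - gr m j) = (x + 12) * m - j := by
          unfold gr
          field_simp
          ring
        have e2 : (m : ℝ) ^ 2 * (x - gr m j) ^ 2 = ((x + 12) * m - j) ^ 2 := by
          rw [← mul_pow, e1]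
        rw [e2]
        have e3 : ((x + 12) * m - j) ^ 2 ≤ 1 := by
          have a1 : 0 ≤ (x + 12) * m - j := by linarith
          have a2 : (x + 12) * m - j ≤ 1 := by linarith
          nlinarith
        linarith
      refine le_trans hb ?_
      exact Finset.single_le_sum (f := fun j => bump m (gr m j) x)
        (fun i _ => bump_nonneg _ _ _) hjr
    · rw [Set.indicator_of_notMem hx]
      exact Finset.sum_nonneg fun j _ => bump_nonneg _ _ _
  have h3 : ∫ x, (Set.Icc (-12 : ℝ) 12).indicator (fun _ => Real.exp (-(1 / 2))) x ∂ρ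
      ≤ ∫ x, ∑ j ∈ Finset.range (24 * m + 1), bump m (gr m j) x ∂ρ := by
    apply integral_mono
    · exact (integrable_const _).indicator measurableSet_Icc
    · exact integrable_finsetSum _ fun j _ => bump_integrable ρ m (gr m j)
    · exact h1
  rw [integral_indicator measurableSet_Icc, setIntegral_const, smul_eq_mul] at h3
  have h9 : (0.3 : ℝ) ≤ ρ.real (Set.Icc (-12) 12) * Real.exp (-(1 / 2)) := by
    calc (0.3 : ℝ) = 1 / 2 * 0.6 := by norm_num
      _ ≤ _ := mul_le_mul h exp_half_lower (by norm_num) measureReal_nonneg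
  linarith

lemma bump_left (m x0 : ℝ) (hx0 : x0 ≤ -8) (ρ : Measure ℝ) [IsProbabilityMeasure ρ] :
    ∫ x, bump m x0 x ∂ρ ≤ ρ.real (Set.Iio (-1)) + Real.exp (-(24 * m ^ 2)) := by
  have h2 : ∀ x, bump m x0 x ≤ (Set.Iio (-1 : ℝ)).indicator (fun _ => (1 : ℝ)) x
      + Real.exp (-(24 * m ^ 2)) := by
    intro x
    by_cases hx : x < -1
    · rw [Set.indicator_of_mem (Set.mem_Iio.mpr hx)]
      have := bump_le_one m x0 x
      have := Real.exp_pos (-(24 * m ^ 2))
      linarith
    · rw [Set.indicator_of_notMem (by simpa using hx), zero_add]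
      apply bump_far
      rw [not_lt] at hx
      rw [abs_of_nonneg (by linarith)]
      linarith
  calc ∫ x, bump m x0 x ∂ρ
      ≤ ∫ x, ((Set.Iio (-1 : ℝ)).indicator (fun _ => (1 : ℝ)) x
        + Real.exp (-(24 * m ^ 2))) ∂ρ := by
        apply integral_mono (bump_integrable ρ m x0)
        · exact ((integrable_const (1 : ℝ)).indicator measurableSet_Iio).add
            (integrable_const _)
        · exact h2
    _ = _ := by
        rw [integral_add ((integrable_const (1 : ℝ)).indicator measurableSet_Iio)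
          (integrable_const _), integral_indicator measurableSet_Iio]
        simp

/-- Deterministic part: extrapolation of the profile from far left. -/
lemma prof_extrap (N : ℕ) (c μ : Fin N → ℂ) (hc : ∀ k, ‖c k‖ * Real.exp ((μ k).re ^ 2 / 2) ≤ 1)
    (m M : ℝ) (hM : M = (N : ℝ) + 1) (hm1 : 1 ≤ m) (hs : ℝ) (hs0 : 0 ≤ hs)
    (hup : ∀ x0 : ℝ, x0 ≤ -8 → ‖prof m c μ x0‖ ≤ hs) (x0 : ℝ) (h1x : -12 ≤ x0) (h2x : x0 ≤ 12) :
    ‖prof m c μ x0‖ ≤ Real.exp (8401 * M ^ 2) * (Real.exp ((20 * M) ^ 2 / 2)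
      * (hs + N * Real.exp (-(40000 * M ^ 2)))) + N * Real.exp (-(40000 * M ^ 2)) := by
  have hN0 : (0 : ℝ) ≤ N := Nat.cast_nonneg N
  have hM1 : 1 ≤ M := by rw [hM]; linarith
  have hNM : (N : ℝ) ≤ M := by rw [hM]; linarith
  obtain ⟨r, hr⟩ : ∃ r : ℝ, r = (m ^ 2)⁻¹ := ⟨_, rfl⟩
  have hr0 : 0 ≤ r := by rw [hr]; positivity
  have hr1 : r ≤ 1 := by
    rw [hr]
    apply inv_le_one_of_one_le₀
    nlinarith
  obtain ⟨L, hL⟩ : ∃ L : ℝ, L = 20 * M := ⟨_, rfl⟩
  obtain ⟨K, hK⟩ : ∃ K : ℝ, K = 420 * M := ⟨_, rfl⟩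
  obtain ⟨η, hη⟩ : ∃ η : ℝ, η = N * Real.exp (-(40000 * M ^ 2)) := ⟨_, rfl⟩
  rw [← hL, ← hη]
  have hη0 : 0 ≤ η := by rw [hη]; positivity
  set S : Finset (Fin N) := univ.filter fun k => |(μ k).im| ≤ K with hS
  have hdrop : ∀ x : ℝ, |x| ≤ L → ‖∑ k ∈ Sᶜ, tm r (c k) (μ k) x‖ ≤ η := by
    intro x hx
    calc ‖∑ k ∈ Sᶜ, tm r (c k) (μ k) x‖ ≤ ∑ k ∈ Sᶜ, ‖tm r (c k) (μ k) x‖ := norm_sum_le _ _
      _ ≤ ∑ _k ∈ Sᶜ, Real.exp (-(40000 * M ^ 2)) := by
          apply Finset.sum_le_sum
          intro k hk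
          have hk' : K < |(μ k).im| := by
            rw [Finset.mem_compl, hS, Finset.mem_filter] at hk
            simpa using hk
          refine le_trans (term_bound (c k) (μ k) (hc k) r x hr0) ?_
          apply Real.exp_le_exp.mpr
          have h1 : 400 * M ≤ |x - (μ k).im| := by
            have := abs_sub_abs_le_abs_sub (μ k).im x
            rw [abs_sub_comm] at this
            have h2 : K - L = 400 * M := by rw [hK, hL]; ring
            linarith
          have h2 : (400 * M) ^ 2 ≤ (x - (μ k).im) ^ 2 := by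
            rw [← sq_abs (x - (μ k).im)]
            exact pow_le_pow_left₀ (by positivity) h1 2
          have h3 : 40000 * M ^ 2 ≤ (x - (μ k).im) ^ 2 / (2 * (1 + r)) := by
            rw [le_div_iff₀ (by positivity)]
            have : 40000 * M ^ 2 * (2 * (1 + r)) ≤ 40000 * M ^ 2 * (2 * (1 + 1)) := by
              apply mul_le_mul_of_nonneg_left _ (by positivity)
              linarith
            nlinarith
          linarith
      _ ≤ η := by
          rw [Finset.sum_const, nsmul_eq_mul, hη]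
          apply mul_le_mul_of_nonneg_right _ (Real.exp_pos _).le
          have : (Sᶜ).card ≤ N := by
            simpa using Finset.card_le_univ (Sᶜ)
          exact_mod_cast this
  have hsplit : ∀ x : ℝ, prof m c μ x
      = ∑ k ∈ S, tm r (c k) (μ k) x + ∑ k ∈ Sᶜ, tm r (c k) (μ k) x := by
    intro x
    rw [prof_eq, Finset.sum_add_sum_compl, hr]
  have hkeep : ∀ x : ℝ, |x| ≤ L → ‖∑ k ∈ S, tm r (c k) (μ k) x‖ ≤ ‖prof m c μ x‖ + η := by
    intro x hx
    have h1 : ∑ k ∈ S, tm r (c k) (μ k) x = prof m c μ x - ∑ k ∈ Sᶜ, tm r (c k) (μ k) x := by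
      rw [hsplit]; ring
    rw [h1]
    exact (norm_sub_le _ _).trans (by have := hdrop x hx; linarith)
  have hx0L : |x0| ≤ L := by
    rw [abs_le, hL]
    constructor <;> linarith
  have hA0 : 0 ≤ Real.exp (L ^ 2 / 2) * (hs + η) := by positivity
  have hrec := recur (Real.exp (20 * K)) (Real.exp_pos _).le S (fun k => tm r (c k) (μ k) x0)
    (fun k => cexp (20 * I * μ k / (1 + (r : ℂ)))) (Real.exp (L ^ 2 / 2) * (hs + η)) hA0
    (fun k _ => Complex.exp_ne_zero _)
    (by
      intro k hk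
      rw [← Complex.exp_neg, Complex.norm_exp]
      apply Real.exp_le_exp.mpr
      have e1 : (-(20 * I * μ k / (1 + (r : ℂ)))).re = 20 * (μ k).im / (1 + r) := by
        have e2 : (1 + (r : ℂ)) = ((1 + r : ℝ) : ℂ) := by push_cast; ring
        rw [e2, Complex.neg_re, Complex.div_ofReal_re]
        have e3 : (20 * I * μ k).re = -(20 * (μ k).im) := by
          simp [Complex.mul_re]
        rw [e3]
        ring
      rw [e1]
      have hk' : |(μ k).im| ≤ K := by
        rw [hS, Finset.mem_filter] at hk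
        exact hk.2
      have h1 : (μ k).im ≤ K := le_trans (le_abs_self _) hk'
      rw [div_le_iff₀ (by positivity)]
      have hK0 : 0 ≤ K := by rw [hK]; positivity
      nlinarith)
    (by
      intro v hv
      rw [Finset.mem_Icc] at hv
      have hvN : v ≤ N := hv.2.trans (by simpa using Finset.card_le_univ S)
      have hvr : (v : ℝ) ≤ N := by exact_mod_cast hvN
      have hv1 : (1 : ℝ) ≤ v := by exact_mod_cast hv.1
      have hxv : |x0 - 20 * v| ≤ L := by
        rw [abs_le, hL, hM]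
        constructor <;> linarith
      have hxv8 : x0 - 20 * v ≤ -8 := by linarith
      have e1 : ∑ k ∈ S, tm r (c k) (μ k) x0 * cexp (20 * I * μ k / (1 + (r : ℂ))) ^ v
          = ((Real.exp (((x0 - 20 * v) ^ 2 - x0 ^ 2) / (2 * (1 + r))) : ℝ) : ℂ)
            * ∑ k ∈ S, tm r (c k) (μ k) (x0 - 20 * v) := by
        rw [Finset.mul_sum]
        apply Finset.sum_congr rfl
        intro k _
        exact tm_shift r hr0 (c k) (μ k) x0 v
      rw [e1, norm_mul, Complex.norm_real, Real.norm_eq_abs, abs_of_pos (Real.exp_pos _)]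
      apply mul_le_mul
      · apply Real.exp_le_exp.mpr
        have h1 : (x0 - 20 * v) ^ 2 ≤ L ^ 2 := by
          rw [← sq_abs (x0 - 20 * v)]
          exact pow_le_pow_left₀ (abs_nonneg _) hxv 2
        calc ((x0 - 20 * v) ^ 2 - x0 ^ 2) / (2 * (1 + r)) ≤ L ^ 2 / (2 * (1 + r)) := by
              apply div_le_div_of_nonneg_right _ (by positivity)
              have := sq_nonneg x0
              linarith
          _ ≤ L ^ 2 / 2 := by
              apply div_le_div_of_nonneg_left (by positivity) (by norm_num)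
              linarith
      · refine le_trans (hkeep _ hxv) ?_
        have := hup _ hxv8
        linarith
      · exact norm_nonneg _
      · positivity)
  have hRN : (1 + Real.exp (20 * K)) ^ S.card - 1 ≤ Real.exp (8401 * M ^ 2) := by
    have hR0 : 0 < Real.exp (20 * K) := Real.exp_pos _
    have h1 : 1 + Real.exp (20 * K) ≤ Real.exp (20 * K + 1) := by
      rw [Real.exp_add]
      have h2 : (2 : ℝ) ≤ Real.exp 1 := by
        have := Real.exp_one_gt_d9
        linarith
      have h3 : (1 : ℝ) ≤ Real.exp (20 * K) := Real.one_le_exp (by rw [hK]; positivity)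
      nlinarith
    have h2 : (1 + Real.exp (20 * K)) ^ S.card ≤ (1 + Real.exp (20 * K)) ^ N := by
      apply pow_le_pow_right₀
      · linarith
      · simpa using Finset.card_le_univ S
    have h3 : (1 + Real.exp (20 * K)) ^ N ≤ Real.exp (20 * K + 1) ^ N := by
      apply pow_le_pow_left₀ _ h1
      linarith
    have h4 : Real.exp (20 * K + 1) ^ N ≤ Real.exp (8401 * M ^ 2) := by
      rw [← Real.exp_nat_mul]
      apply Real.exp_le_exp.mpr
      rw [hK]
      nlinarith
    linarith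
  have hfin : ‖∑ k ∈ S, tm r (c k) (μ k) x0‖
      ≤ Real.exp (8401 * M ^ 2) * (Real.exp (L ^ 2 / 2) * (hs + η)) := by
    refine le_trans hrec ?_
    exact mul_le_mul_of_nonneg_right hRN hA0
  rw [hsplit]
  refine (norm_add_le _ _).trans ?_
  have := hdrop x0 hx0L
  linarith

end Vale.Agent.P367.Fin
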