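import Vale.Agent.P367.Fin.Recur

open MeasureTheory Filter Topology Finset Complex

namespace Vale.Agent.P367.Fin

/-- Gaussian integral with a real quadratic coefficient. -/
lemma gauss_int (B : ℝ) (hB : 0 < B) (c : ℂ) :
    ∫ x : ℝ, cexp (-(B : ℂ) * x ^ 2 + c * x) = ((Real.sqrt (Real.pi / B) : ℝ) : ℂ)
      * cexp (c ^ 2 / (4 * B)) := by
  have h := integral_cexp_quadratic (b := -(B : ℂ)) (by simpa using hB) c 0
  simp only [add_zero] at h
  rw [h]
  congr 1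
  · rw [neg_neg, ← Complex.ofReal_div, Real.sqrt_eq_rpow,
      Complex.ofReal_cpow (by positivity)]
    norm_num
  · congr 1
    have : (B : ℂ) ≠ 0 := by exact_mod_cast hB.ne'
    field_simp
    ring

lemma gauss_integrable (B : ℝ) (hB : 0 < B) (c : ℂ) :
    Integrable (fun x : ℝ => cexp (-(B : ℂ) * x ^ 2 + c * x)) := by
  have h := integrable_cexp_quadratic (b := (B : ℂ)) (by simpa using hB) c 0
  simpa only [add_zero] using h

/-- A Gaussian bump of width `1/m`. -/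
noncomputable def bump (m x0 x : ℝ) : ℝ := Real.exp (-(m ^ 2 * (x - x0) ^ 2 / 2))

lemma bump_le_one (m x0 x : ℝ) : bump m x0 x ≤ 1 := by
  unfold bump
  apply Real.exp_le_one_iff.mpr
  have : 0 ≤ m ^ 2 * (x - x0) ^ 2 / 2 := by positivity
  linarith

lemma bump_nonneg (m x0 x : ℝ) : 0 ≤ bump m x0 x := (Real.exp_pos _).le

lemma continuous_bump (m x0 : ℝ) : Continuous (bump m x0) := by
  unfold bump
  fun_prop

lemma bump_fourier (m : ℝ) (hm : 0 < m) (x0 x : ℝ) :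
    ∫ ξ : ℝ, cexp (-((1 / (2 * m ^ 2) : ℝ) : ℂ) * ξ ^ 2 + (I * x0) * ξ) * cexp (-(I * ξ * x))
      = ((Real.sqrt (Real.pi / (1 / (2 * m ^ 2))) : ℝ) : ℂ) * ((bump m x0 x : ℝ) : ℂ) := by
  have hB : 0 < 1 / (2 * m ^ 2) := by positivity
  have h := gauss_int (1 / (2 * m ^ 2)) hB (I * (x0 - x))
  have e1 : ∀ ξ : ℝ, cexp (-((1 / (2 * m ^ 2) : ℝ) : ℂ) * ξ ^ 2 + (I * x0) * ξ)
      * cexp (-(I * ξ * x)) = cexp (-((1 / (2 * m ^ 2) : ℝ) : ℂ) * ξ ^ 2 + (I * (x0 - x)) * ξ) := by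
    intro ξ
    rw [← Complex.exp_add]
    congr 1
    ring
  simp only [e1]
  rw [h]
  congr 1
  unfold bump
  rw [Complex.ofReal_exp]
  congr 1
  push_cast
  have hm' : (m : ℂ) ≠ 0 := by exact_mod_cast hm.ne'
  field_simp
  rw [Complex.I_sq]
  ring

/-- The limit profile. -/
noncomputable def prof {N : ℕ} (m : ℝ) (c μ : Fin N → ℂ) (x0 : ℝ) : ℂ :=
  ∑ k, c k * cexp ((I * x0 - μ k) ^ 2 / (2 * (1 + (((m ^ 2)⁻¹ : ℝ) : ℂ))))

lemma bump_tendsto {N : ℕ} (ρ : ℕ → Measure ℝ) [∀ n, IsProbabilityMeasure (ρ n)]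
    (c μ : Fin N → ℂ)
    (hφ : ∀ ξ : ℝ, Tendsto (fun n => ∫ x : ℝ, cexp (-(I * ξ * x)) ∂(ρ n)) atTop
      (𝓝 (cexp (-(ξ : ℂ) ^ 2 / 2) * ∑ k, c k * cexp (-(ξ * μ k)))))
    (m : ℝ) (hm : 0 < m) (x0 : ℝ) :
    Tendsto (fun n => ((Real.sqrt (1 + m ^ 2) * ∫ x, bump m x0 x ∂(ρ n) : ℝ) : ℂ)) atTop
      (𝓝 (prof m c μ x0)) := by
  set B : ℝ := 1 / (2 * m ^ 2) with hBdef
  have hB : 0 < B := by positivity
  set K : ℝ → ℂ := fun ξ => cexp (-(B : ℂ) * ξ ^ 2 + (I * x0) * ξ) with hK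
  have hKi : Integrable K := gauss_integrable B hB (I * x0)
  have hKn : ∀ ξ, ‖K ξ‖ = Real.exp (-B * ξ ^ 2) := by
    intro ξ
    simp only [hK]
    rw [Complex.norm_exp]
    congr 1
    simp only [add_re, mul_re, neg_re, ofReal_re, I_re, ofReal_im, I_im, neg_im, mul_im]
    have : ((ξ : ℂ) ^ 2).re = ξ ^ 2 := by
      rw [← Complex.ofReal_pow, Complex.ofReal_re]
    rw [this]
    ring
  have hcn : ∀ (ξ x : ℝ), ‖cexp (-(I * ξ * x))‖ = 1 := by
    intro ξ x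
    rw [Complex.norm_exp]
    simp
  -- Fubini
  have hfub : ∀ n, ∫ ξ : ℝ, K ξ * ∫ x : ℝ, cexp (-(I * ξ * x)) ∂(ρ n)
      = ((Real.sqrt (Real.pi / B) : ℝ) : ℂ) * ((∫ x, bump m x0 x ∂(ρ n) : ℝ) : ℂ) := by
    intro n
    have h1 : ∀ ξ : ℝ, K ξ * ∫ x : ℝ, cexp (-(I * ξ * x)) ∂(ρ n)
        = ∫ x : ℝ, K ξ * cexp (-(I * ξ * x)) ∂(ρ n) := fun ξ => (integral_const_mul _ _).symm
    simp only [h1]
    rw [integral_integral_swap]
    · have h2 : ∀ x : ℝ, ∫ ξ : ℝ, K ξ * cexp (-(I * ξ * x))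
          = ((Real.sqrt (Real.pi / B) : ℝ) : ℂ) * ((bump m x0 x : ℝ) : ℂ) :=
        fun x => bump_fourier m hm x0 x
      simp only [h2]
      rw [integral_const_mul, integral_complex_ofReal]
    · have h3 : Integrable (fun z : ℝ × ℝ => K z.1 * (1 : ℂ)) (volume.prod (ρ n)) :=
        hKi.mul_prod (integrable_const (1 : ℂ))
      refine h3.mono ?_ (Filter.Eventually.of_forall fun z => ?_)
      · apply Continuous.aestronglyMeasurable
        simp only [hK, Function.uncurry_def]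
        fun_prop
      · simp only [Function.uncurry]
        rw [norm_mul, norm_mul, hcn, norm_one]
  have hlim : Tendsto (fun n => ∫ ξ : ℝ, K ξ * ∫ x : ℝ, cexp (-(I * ξ * x)) ∂(ρ n)) atTop
      (𝓝 (∫ ξ : ℝ, K ξ * (cexp (-(ξ : ℂ) ^ 2 / 2) * ∑ k, c k * cexp (-(ξ * μ k))))) := by
    apply tendsto_integral_of_dominated_convergence (fun ξ => ‖K ξ‖)
    · intro n
      have h4 : AEStronglyMeasurable (fun ξ : ℝ => ∫ x : ℝ, cexp (-(I * ξ * x)) ∂(ρ n))
          volume := by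
        have h5 : Continuous (Function.uncurry fun (ξ x : ℝ) => cexp (-(I * (ξ : ℂ) * x))) := by
          simp only [Function.uncurry_def]
          fun_prop
        exact (h5.stronglyMeasurable.integral_prod_right).aestronglyMeasurable
      exact hKi.aestronglyMeasurable.mul h4
    · exact hKi.norm
    · intro n
      refine Filter.Eventually.of_forall fun ξ => ?_
      rw [norm_mul]
      have h6 : ‖∫ x : ℝ, cexp (-(I * ξ * x)) ∂(ρ n)‖ ≤ 1 := by
        refine le_trans (norm_integral_le_integral_norm _) ?_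
        simp only [hcn]
        simp
      calc ‖K ξ‖ * ‖∫ x : ℝ, cexp (-(I * ξ * x)) ∂(ρ n)‖ ≤ ‖K ξ‖ * 1 :=
            mul_le_mul_of_nonneg_left h6 (norm_nonneg _)
        _ = ‖K ξ‖ := mul_one _
    · refine Filter.Eventually.of_forall fun ξ => ?_
      exact (hφ ξ).const_mul _
  -- evaluate the limit integral
  have hval : ∫ ξ : ℝ, K ξ * (cexp (-(ξ : ℂ) ^ 2 / 2) * ∑ k, c k * cexp (-(ξ * μ k)))
      = ((Real.sqrt (Real.pi / (B + 1 / 2)) : ℝ) : ℂ) * prof m c μ x0 := by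
    have hB2 : 0 < B + 1 / 2 := by positivity
    have e1 : ∀ ξ : ℝ, K ξ * (cexp (-(ξ : ℂ) ^ 2 / 2) * ∑ k, c k * cexp (-(ξ * μ k)))
        = ∑ k, c k * cexp (-((B + 1 / 2 : ℝ) : ℂ) * ξ ^ 2 + (I * x0 - μ k) * ξ) := by
      intro ξ
      rw [← mul_assoc, Finset.mul_sum]
      apply Finset.sum_congr rfl
      intro k _
      simp only [hK]
      rw [← Complex.exp_add, mul_left_comm, ← Complex.exp_add]
      congr 2
      push_cast
      ring
    simp only [e1]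
    rw [integral_finsetSum]
    · unfold prof
      rw [Finset.mul_sum]
      apply Finset.sum_congr rfl
      intro k _
      rw [integral_const_mul, gauss_int (B + 1 / 2) hB2]
      have e2 : (4 : ℂ) * ((B + 1 / 2 : ℝ) : ℂ) = 2 * (1 + (((m ^ 2)⁻¹ : ℝ) : ℂ)) := by
        have : 4 * (B + 1 / 2) = 2 * (1 + (m ^ 2)⁻¹) := by
          rw [hBdef]; field_simp; ring
        exact_mod_cast this
      rw [e2]
      ring
    · intro k _
      exact (gauss_integrable (B + 1 / 2) hB2 _).const_mul _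
  rw [hval] at hlim
  simp only [hfub] at hlim
  have hs1 : 0 < Real.sqrt (Real.pi / B) := Real.sqrt_pos.mpr (by positivity)
  have hs2 : 0 < Real.sqrt (Real.pi / (B + 1 / 2)) := Real.sqrt_pos.mpr (by positivity)
  have hratio : Real.sqrt (Real.pi / B) = Real.sqrt (Real.pi / (B + 1 / 2)) *
      Real.sqrt (1 + m ^ 2) := by
    rw [← Real.sqrt_mul (by positivity)]
    congr 1
    rw [hBdef]
    field_simp
  have hlim2 := hlim.const_mul (((Real.sqrt (Real.pi / (B + 1 / 2)))⁻¹ : ℝ) : ℂ)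
  have e3 : (((Real.sqrt (Real.pi / (B + 1 / 2)))⁻¹ : ℝ) : ℂ)
      * (((Real.sqrt (Real.pi / (B + 1 / 2)) : ℝ) : ℂ) * prof m c μ x0) = prof m c μ x0 := by
    rw [← mul_assoc, ← Complex.ofReal_mul, inv_mul_cancel₀ hs2.ne', Complex.ofReal_one, one_mul]
  rw [e3] at hlim2
  refine hlim2.congr fun n => ?_
  rw [hratio]
  generalize Real.sqrt (Real.pi / (B + 1 / 2)) = a at hs2
  have ha : (a : ℂ) ≠ 0 := by exact_mod_cast hs2.ne'
  push_cast
  rw [mul_assoc, ← mul_assoc, inv_mul_cancel₀ ha, one_mul]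

/-- Size of a single term of the profile. -/
lemma term_bound (c μ : ℂ) (hc : ‖c‖ * Real.exp (μ.re ^ 2 / 2) ≤ 1) (r x : ℝ) (hr : 0 ≤ r) :
    ‖c * cexp ((I * x - μ) ^ 2 / (2 * (1 + (r : ℂ))))‖
      ≤ Real.exp (-((x - μ.im) ^ 2 / (2 * (1 + r)))) := by
  rw [norm_mul, Complex.norm_exp]
  have e1 : ((I * x - μ) ^ 2 / (2 * (1 + (r : ℂ)))).re
      = μ.re ^ 2 / (2 * (1 + r)) - (x - μ.im) ^ 2 / (2 * (1 + r)) := by
    have e2 : (2 * (1 + (r : ℂ))) = ((2 * (1 + r) : ℝ) : ℂ) := by push_cast; ring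
    rw [e2, Complex.div_ofReal_re]
    have e3 : ((I * x - μ) ^ 2).re = μ.re ^ 2 - (x - μ.im) ^ 2 := by
      rw [sq, Complex.mul_re]
      simp only [sub_re, mul_re, I_re, ofReal_re, I_im, ofReal_im, sub_im, mul_im]
      ring
    rw [e3]
    ring
  rw [e1, sub_eq_add_neg, Real.exp_add, ← mul_assoc]
  have h2 : ‖c‖ * Real.exp (μ.re ^ 2 / (2 * (1 + r))) ≤ 1 := by
    refine le_trans ?_ hc
    apply mul_le_mul_of_nonneg_left _ (norm_nonneg _)
    apply Real.exp_le_exp.mpr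
    apply div_le_div_of_nonneg_left (by positivity) (by norm_num)
    linarith
  calc ‖c‖ * Real.exp (μ.re ^ 2 / (2 * (1 + r))) * Real.exp (-((x - μ.im) ^ 2 / (2 * (1 + r))))
      ≤ 1 * Real.exp (-((x - μ.im) ^ 2 / (2 * (1 + r)))) :=
        mul_le_mul_of_nonneg_right h2 (Real.exp_pos _).le
    _ = _ := one_mul _

end Vale.Agent.P367.Fin
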